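import Vale.Agent.P093H.Main
import Vale.Agent.P093.Gen

open Vale.Agent.P093

theorem Vale.Agent.Results.P093.B_hole.result
    (Z : Type) [MetricSpace Z] [CompactSpace Z] [TotallyDisconnectedSpace Z] (σ : Z ≃ₜ Z)
    (K : Type) [MetricSpace K] [CompactSpace K]
    (hK : ∀ 𝒰 : Set (Set K), IsCover 𝒰 → ∃ e : (Fin (leastOrd 𝒰) → unitInterval) → K,
      Continuous e ∧ Function.Injective e)
    (F : Set Z) (hF : IsClosed F) (v : Z → K) (hv : ContinuousOn v Fᶜ)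
    (h : holeSet σ F v ≃ₜ holeSet σ F v) (h₁ : ∀ x, (h x).1.1 = σ x.1.1)
    (h₂ : ∀ x i, (h x).1.2 i = x.1.2 (i + 1))
    (hmin : ∀ x, Dense (Set.range fun n : ℤ => (h ^ n) x)) [Infinite (holeSet σ F v)] :
    mdim h / 2 ≤ rcGen (gens h) :=
  Hole.main ⟨hF, hv, h₁, h₂, hmin⟩ hK
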