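import Vale.Agent.P093C.Main
import Vale.Agent.P093.Gen

open Vale.Agent.P093

theorem Vale.Agent.Results.P093.C_cube.result
    (X : Type) [MetricSpace X] [CompactSpace X] [Infinite X] (h : X ≃ₜ X)
    (hmin : ∀ x, Dense (Set.range fun n : ℤ => (h ^ n) x))
    (hfin : mdim h ≠ ⊤) (hcube : mdim h ≤ cdim h) :
    mdim h / 2 ≤ rcGen (gens h) :=
  cube_main hmin hfin hcube
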