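import Vale.Agent.P093C.Tight
import Vale.Agent.P093.Gen

open Vale.Agent.P093
open scoped ENNReal

theorem Vale.Agent.Results.P093.D_tight.result
    (X : Type) [MetricSpace X] [CompactSpace X] [Infinite X] (h : X ≃ₜ X)
    (hmin : ∀ x, Dense (Set.range fun n : ℤ => (h ^ n) x))
    (hcube : ∀ 𝒰, IsCover 𝒰 → ∀ η : ℝ≥0∞, 0 < η → ∃ 𝒱, IsCover 𝒱 ∧
      ordRate h 𝒰 ≤ cubeRate h 𝒱 + η ∧ ordRate h 𝒱 ≤ cubeRate h 𝒱 + η) :
    mdim h / 2 ≤ rcGen (gens h) :=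
  tight_main hmin hcube
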